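import Vale.Agent.P298.H39.RelDefs

/-!
# P298, row R1-NAT: the Lie derivative of a relative form along a lift is a relative form
-/

open scoped ContDiff Topology Manifold
open Vale.Agent.P272.K
open Vale.Agent.P298.H39

noncomputable section

namespace Vale.Agent.P298.H369

/-- second derivative -/
def D2 {G : Type*} [NormedAddCommGroup G] [NormedSpace ℝ G] (f : Cm 2 × ℂ → G)
    (q a b : Cm 2 × ℂ) : G := fderiv ℝ (fderiv ℝ f) q a b

variable {v : Cm 2 × ℂ → Cm 2} {s : ℂ} {α : Cm 2 × ℂ → BF} {q : Cm 2 × ℂ}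

lemma contDiffAt_fderiv {G : Type*} [NormedAddCommGroup G] [NormedSpace ℝ G]
    {f : Cm 2 × ℂ → G} (hf : ContDiffAt ℝ ∞ f q) : ContDiffAt ℝ ∞ (fderiv ℝ f) q :=
  hf.fderiv_right (m := ∞) (by simp)

lemma hasFDerivAt_of {G : Type*} [NormedAddCommGroup G] [NormedSpace ℝ G]
    {f : Cm 2 × ℂ → G} (hf : ContDiffAt ℝ ∞ f q) : HasFDerivAt f (fderiv ℝ f q) q :=
  (hf.differentiableAt (by simp)).hasFDerivAt

lemma D2_symm {G : Type*} [NormedAddCommGroup G] [NormedSpace ℝ G]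
    {f : Cm 2 × ℂ → G} (hf : ContDiffAt ℝ ∞ f q) (a b : Cm 2 × ℂ) :
    D2 f q a b = D2 f q b a :=
  (hf.isSymmSndFDerivAt (by simp; exact ENat.LEInfty.out)).eq a b

lemma contDiffAt_dfv (hv : ContDiffAt ℝ ∞ v q) : ContDiffAt ℝ ∞ (dfv v) q :=
  (contDiffAt_fderiv hv).clm_comp contDiffAt_const

/-- smoothness of the Lie derivative in a chart -/
lemma contDiffAt_lieB (hv : ContDiffAt ℝ ∞ v q) (hα : ContDiffAt ℝ ∞ α q) :
    ContDiffAt ℝ ∞ (lieB v s α) q := by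
  have h3 : ContDiffAt ℝ ∞ (fun q => (s • v q, s)) q :=
    (hv.const_smul s).prodMk contDiffAt_const
  have h4 : ContDiffAt ℝ ∞ (fun q => s • dfv v q) q := (contDiffAt_dfv hv).const_smul s
  have h5 : ContDiffAt ℝ ∞ (fun q => act (s • dfv v q) (α q)) q := by
    unfold act
    refine ContDiffAt.add (hα.clm_comp h4) ?_
    refine ContDiffAt.clm_comp ?_ hα
    exact (ContinuousLinearMap.contDiff _).contDiffAt.comp q h4
  exact ((contDiffAt_fderiv hα).clm_apply h3).add h5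

/-- derivative of the value of a map at a moving argument -/
lemma fderiv_apply {G H : Type*} [NormedAddCommGroup G] [NormedSpace ℝ G]
    [NormedAddCommGroup H] [NormedSpace ℝ H] {c : Cm 2 × ℂ → G →L[ℝ] H} {u : Cm 2 × ℂ → G}
    {c' : Cm 2 × ℂ →L[ℝ] G →L[ℝ] H} {u' : Cm 2 × ℂ →L[ℝ] G}
    (hc : HasFDerivAt c c' q) (hu : HasFDerivAt u u' q) :
    ∃ L : Cm 2 × ℂ →L[ℝ] H, HasFDerivAt (fun q => c q (u q)) L q ∧
      ∀ w, L w = c' w (u q) + c q (u' w) := by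
  refine ⟨_, hc.clm_apply hu, fun w => ?_⟩
  simp [add_comm]

/-- first derivative of the Lie derivative in a chart -/
lemma fderiv_lieB (hv : ContDiffAt ℝ ∞ v q) (hα : ContDiffAt ℝ ∞ α q) (w : Cm 2 × ℂ)
    (y z : Cm 2) :
    fderiv ℝ (lieB v s α) q w y z =
      D2 α q w (s • v q, s) y z + fderiv ℝ α q (s • fderiv ℝ v q w, 0) y z +
      (fderiv ℝ α q w (s • fderiv ℝ v q (y, 0)) z + α q (s • D2 v q w (y, 0)) z) +
      (fderiv ℝ α q w y (s • fderiv ℝ v q (z, 0)) + α q y (s • D2 v q w (z, 0))) := by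
  have hA := hasFDerivAt_of (contDiffAt_fderiv hα)
  have ha := hasFDerivAt_of hα
  have hV := hasFDerivAt_of hv
  have hW := hasFDerivAt_of (contDiffAt_fderiv hv)
  have h3 : HasFDerivAt (fun q => (s • v q, s))
      ((s • fderiv ℝ v q).prod (0 : Cm 2 × ℂ →L[ℝ] ℂ)) q :=
    (hV.const_smul s).prodMk (hasFDerivAt_const s q)
  obtain ⟨L1, h1, e1⟩ := fderiv_apply hA h3
  obtain ⟨L2, h2, e2⟩ := fderiv_apply h1 (hasFDerivAt_const y q)
  obtain ⟨L3, h3', e3⟩ := fderiv_apply h2 (hasFDerivAt_const z q)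
  obtain ⟨L4, h4, e4⟩ := fderiv_apply hW (hasFDerivAt_const (y, (0 : ℂ)) q)
  obtain ⟨L5, h5, e5⟩ := fderiv_apply hW (hasFDerivAt_const (z, (0 : ℂ)) q)
  have h4' : HasFDerivAt (fun q => s • fderiv ℝ v q (y, 0)) (s • L4) q := h4.const_smul s
  have h5' : HasFDerivAt (fun q => s • fderiv ℝ v q (z, 0)) (s • L5) q := h5.const_smul s
  obtain ⟨L6, h6, e6⟩ := fderiv_apply ha h4'
  obtain ⟨L7, h7, e7⟩ := fderiv_apply h6 (hasFDerivAt_const z q)
  obtain ⟨L8, h8, e8⟩ := fderiv_apply ha (hasFDerivAt_const y q)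
  obtain ⟨L9, h9, e9⟩ := fderiv_apply h8 h5'
  have h10 := (h3'.add h7).add h9
  have e : (fun q => lieB v s α q y z) = fun q => fderiv ℝ α q (s • v q, s) y z +
      α q (s • fderiv ℝ v q (y, 0)) z + α q y (s • fderiv ℝ v q (z, 0)) := by
    funext q
    rw [lieB_apply]
    rfl
  have h11 := hasFDerivAt_of (contDiffAt_lieB (s := s) hv hα)
  obtain ⟨L12, h12, e12⟩ := fderiv_apply h11 (hasFDerivAt_const y q)
  obtain ⟨L13, h13, e13⟩ := fderiv_apply h12 (hasFDerivAt_const z q)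
  rw [e] at h13
  have h14 := h13.unique h10
  have h15 : L13 w = (L3 + L7 + L9) w := by rw [h14]
  rw [e13, e12] at h15
  simp only [_root_.zero_apply, map_zero, add_zero, _root_.add_apply] at h15
  rw [h15, e3, e2, e1, e7, e6, e9, e8]
  simp only [_root_.smul_apply, e4, e5, _root_.zero_apply, map_zero,
    add_zero, _root_.add_apply, ContinuousLinearMap.prod_apply, D2]

/-- the derivative of the closedness relation -/
lemma D2_closed (hα : ContDiffAt ℝ ∞ α q)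
    (hcl : ∀ᶠ q' in 𝓝 q, ∀ u y x : Cm 2, fderiv ℝ α q' (u, 0) y x - fderiv ℝ α q' (y, 0) u x +
      fderiv ℝ α q' (x, 0) u y = 0) (W : Cm 2 × ℂ) (u y x : Cm 2) :
    D2 α q W (u, 0) y x - D2 α q W (y, 0) u x + D2 α q W (x, 0) u y = 0 := by
  have hA := hasFDerivAt_of (contDiffAt_fderiv hα)
  have key : ∀ u y x : Cm 2, ∃ L : Cm 2 × ℂ →L[ℝ] ℂ,
      HasFDerivAt (fun q => fderiv ℝ α q (u, 0) y x) L q ∧ L W = D2 α q W (u, 0) y x := by
    intro u y x
    obtain ⟨L1, h1, e1⟩ := fderiv_apply hA (hasFDerivAt_const (u, (0 : ℂ)) q)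
    obtain ⟨L2, h2, e2⟩ := fderiv_apply h1 (hasFDerivAt_const y q)
    obtain ⟨L3, h3, e3⟩ := fderiv_apply h2 (hasFDerivAt_const x q)
    refine ⟨L3, h3, ?_⟩
    rw [e3, e2, e1]
    simp [D2]
  obtain ⟨L1, h1, e1⟩ := key u y x
  obtain ⟨L2, h2, e2⟩ := key y u x
  obtain ⟨L3, h3, e3⟩ := key x u y
  have h4 := (h1.sub h2).add h3
  have h5 : HasFDerivAt (fun _ : Cm 2 × ℂ => (0 : ℂ)) (L1 - L2 + L3) q := by
    refine h4.congr_of_eventuallyEq ?_
    filter_upwards [hcl] with q' hq'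
    exact (hq' u y x).symm
  have h6 := congrArg (fun L : Cm 2 × ℂ →L[ℝ] ℂ => L W) (h5.unique (hasFDerivAt_const 0 q))
  have h7 : L1 W - L2 W + L3 W = 0 := h6
  rw [e1, e2, e3] at h7
  exact h7

/-- the Lie derivative of a closed form is closed -/
lemma closed_lieB (hv : ContDiffAt ℝ ∞ v q) (hα : ContDiffAt ℝ ∞ α q)
    (hcl : ∀ᶠ q' in 𝓝 q, ∀ u y x : Cm 2, fderiv ℝ α q' (u, 0) y x - fderiv ℝ α q' (y, 0) u x +
      fderiv ℝ α q' (x, 0) u y = 0)
    (halt : ∀ u y, α q u y = -α q y u) (u y x : Cm 2) :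
    fderiv ℝ (lieB v s α) q (u, 0) y x - fderiv ℝ (lieB v s α) q (y, 0) u x +
      fderiv ℝ (lieB v s α) q (x, 0) u y = 0 := by
  rw [fderiv_lieB hv hα, fderiv_lieB hv hα, fderiv_lieB hv hα]
  have h1 := D2_closed hα hcl (s • v q, s) u y x
  have h2 := hcl.self_of_nhds
  have h3 := h2 (s • fderiv ℝ v q (u, 0)) y x
  have h4 := h2 u (s • fderiv ℝ v q (y, 0)) x
  have h5 := h2 u y (s • fderiv ℝ v q (x, 0))
  have h6 := halt y (s • D2 v q (u, 0) (x, 0))
  rw [D2_symm hα (u, 0) (s • v q, s), D2_symm hα (y, 0) (s • v q, s),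
    D2_symm hα (x, 0) (s • v q, s), D2_symm hv (y, 0) (u, 0), D2_symm hv (x, 0) (u, 0),
    D2_symm hv (x, 0) (y, 0)]
  linear_combination h1 + h3 + h4 + h5 + h6

/-- alternation of the Lie derivative -/
lemma alt_lieB (hα : ContDiffAt ℝ ∞ α q) (halt : ∀ᶠ q' in 𝓝 q, ∀ u y, α q' u y = -α q' y u)
    (u y : Cm 2) : lieB v s α q u y = -lieB v s α q y u := by
  have ha := hasFDerivAt_of hα
  have key : ∀ (u y : Cm 2) (W : Cm 2 × ℂ), ∃ L : Cm 2 × ℂ →L[ℝ] ℂ,
      HasFDerivAt (fun q => α q u y) L q ∧ L W = fderiv ℝ α q W u y := by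
    intro u y W
    obtain ⟨L2, h2, e2⟩ := fderiv_apply ha (hasFDerivAt_const u q)
    obtain ⟨L3, h3, e3⟩ := fderiv_apply h2 (hasFDerivAt_const y q)
    refine ⟨L3, h3, ?_⟩
    rw [e3, e2]
    simp
  have h0 : ∀ W : Cm 2 × ℂ, fderiv ℝ α q W u y = -fderiv ℝ α q W y u := by
    intro W
    obtain ⟨L1, h1, e1⟩ := key u y W
    obtain ⟨L2, h2, e2⟩ := key y u W
    have h3 : HasFDerivAt (fun q => α q u y) (-L2) q := by
      refine h2.neg.congr_of_eventuallyEq ?_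
      filter_upwards [halt] with q' hq'
      exact hq' u y
    have h4 := congrArg (fun L : Cm 2 × ℂ →L[ℝ] ℂ => L W) (h1.unique h3)
    have h5 : L1 W = -L2 W := h4
    rw [e1, e2] at h5
    exact h5
  rw [lieB_apply, lieB_apply]
  unfold lie
  have h1 := halt.self_of_nhds
  rw [h0, h1 (s • fderiv ℝ v q (u, 0)) y, h1 u (s • fderiv ℝ v q (y, 0))]
  ring

/-- the change rule for the Lie derivative -/
lemma change_lieB {T : Cm 2 × ℂ → Cm 2 × ℂ} {v' : Cm 2 × ℂ → Cm 2} {α' : Cm 2 × ℂ → BF}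
    (hv : ContDiffAt ℝ ∞ v q) (hα : ContDiffAt ℝ ∞ α q) (hT : ContDiffAt ℝ ∞ T q)
    (hv' : ContDiffAt ℝ ∞ v' (T q)) (hα' : ContDiffAt ℝ ∞ α' (T q))
    (hV : ∀ᶠ q' in 𝓝 q, fderiv ℝ T q' (s • v q', s) = (s • v' (T q'), s))
    (hch : ∀ᶠ q' in 𝓝 q, ∀ u x, α q' u x =
      α' (T q') (fderiv ℝ T q' (u, 0)).1 (fderiv ℝ T q' (x, 0)).1)
    (h2 : ∀ u : Cm 2, (fderiv ℝ T q (u, 0)).2 = 0) (u x : Cm 2) :
    lieB v s α q u x =
      lieB v' s α' (T q) (fderiv ℝ T q (u, 0)).1 (fderiv ℝ T q (x, 0)).1 := by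
  have ha := hasFDerivAt_of hα
  have ha' := hasFDerivAt_of hα'
  have hv1 := hasFDerivAt_of hv
  have hv1' := hasFDerivAt_of hv'
  have hT1 := hasFDerivAt_of hT
  have hT2 := hasFDerivAt_of (contDiffAt_fderiv hT)
  have hV0 := hV.self_of_nhds
  have hch0 := hch.self_of_nhds
  -- first derivative of the form
  have key1 : fderiv ℝ α q (s • v q, s) u x =
      fderiv ℝ α' (T q) (s • v' (T q), s) (fderiv ℝ T q (u, 0)).1 (fderiv ℝ T q (x, 0)).1 +
      α' (T q) (D2 T q (s • v q, s) (u, 0)).1 (fderiv ℝ T q (x, 0)).1 +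
      α' (T q) (fderiv ℝ T q (u, 0)).1 (D2 T q (s • v q, s) (x, 0)).1 := by
    obtain ⟨L1, h1, e1⟩ := fderiv_apply ha (hasFDerivAt_const u q)
    obtain ⟨L2, h2', e2⟩ := fderiv_apply h1 (hasFDerivAt_const x q)
    have hB : ∀ y : Cm 2, ∃ L : Cm 2 × ℂ →L[ℝ] Cm 2,
        HasFDerivAt (fun q => (fderiv ℝ T q (y, 0)).1) L q ∧ ∀ w, L w = (D2 T q w (y, 0)).1 := by
      intro y
      obtain ⟨L3, h3, e3⟩ := fderiv_apply hT2 (hasFDerivAt_const (y, (0 : ℂ)) q)
      refine ⟨(ContinuousLinearMap.fst ℝ (Cm 2) ℂ).comp L3, h3.fst, fun w => ?_⟩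
      show (L3 w).1 = _
      rw [e3]
      simp [D2]
    obtain ⟨Lu, hu, eu⟩ := hB u
    obtain ⟨Lx, hx, ex⟩ := hB x
    have hc : HasFDerivAt (fun q => α' (T q)) ((fderiv ℝ α' (T q)).comp (fderiv ℝ T q)) q :=
      ha'.comp q hT1
    obtain ⟨L5, h5, e5⟩ := fderiv_apply hc hu
    obtain ⟨L6, h6, e6⟩ := fderiv_apply h5 hx
    have h7 : HasFDerivAt (fun q => α q u x) L6 q := by
      refine h6.congr_of_eventuallyEq ?_
      filter_upwards [hch] with q' hq'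
      exact hq' u x
    have h8 := congrArg (fun L : Cm 2 × ℂ →L[ℝ] ℂ => L (s • v q, s)) (h2'.unique h7)
    have h9 : L2 (s • v q, s) = L6 (s • v q, s) := h8
    rw [e2, e1, e6, e5, eu, ex] at h9
    simp only [ContinuousLinearMap.comp_apply, hV0, _root_.zero_apply, map_zero, add_zero,
      _root_.add_apply] at h9
    rw [h9]
  -- derivative of the transformation rule of the lift
  have key2 : ∀ y : Cm 2, (D2 T q (s • v q, s) (y, 0)).1 +
      (fderiv ℝ T q (s • fderiv ℝ v q (y, 0), 0)).1 =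
      s • fderiv ℝ v' (T q) ((fderiv ℝ T q (y, 0)).1, 0) := by
    intro y
    have h3 : HasFDerivAt (fun q => (s • v q, s))
        ((s • fderiv ℝ v q).prod (0 : Cm 2 × ℂ →L[ℝ] ℂ)) q :=
      (hv1.const_smul s).prodMk (hasFDerivAt_const s q)
    obtain ⟨L1, h1, e1⟩ := fderiv_apply hT2 h3
    have h4 : HasFDerivAt (fun q => (s • v' (T q), s))
        ((s • (fderiv ℝ v' (T q)).comp (fderiv ℝ T q)).prod (0 : Cm 2 × ℂ →L[ℝ] ℂ)) q :=
      ((hv1'.comp q hT1).const_smul s).prodMk (hasFDerivAt_const s q)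
    have h5 := h1.unique (h4.congr_of_eventuallyEq hV)
    have h6 : L1 (y, 0) = ((s • (fderiv ℝ v' (T q)).comp (fderiv ℝ T q)).prod
        (0 : Cm 2 × ℂ →L[ℝ] ℂ)) (y, 0) := by rw [h5]
    rw [e1] at h6
    have h7 := congrArg Prod.fst h6
    have h8 : fderiv ℝ T q (y, 0) = ((fderiv ℝ T q (y, 0)).1, 0) := Prod.ext rfl (h2 y)
    have h9 : (fderiv ℝ (fderiv ℝ T) q (y, 0) (s • v q, s)).1 +
        (fderiv ℝ T q (s • fderiv ℝ v q (y, 0), 0)).1 =
        s • fderiv ℝ v' (T q) (fderiv ℝ T q (y, 0)) := h7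
    rw [h8] at h9
    have h10 : D2 T q (s • v q, s) (y, 0) = fderiv ℝ (fderiv ℝ T) q (y, 0) (s • v q, s) := by
      rw [D2_symm hT]
      rfl
    rw [h10]
    exact h9
  rw [lieB_apply, lieB_apply]
  unfold lie
  rw [key1, hch0 (s • fderiv ℝ v q (u, 0)) x, hch0 u (s • fderiv ℝ v q (x, 0)),
    ← key2 u, ← key2 x]
  simp only [map_add, _root_.add_apply]
  ring

section
variable {Z : Type} [TopologicalSpace Z] {F : Fam Z} {e e' : PC Z} {z : Z}

/-- the chart change -/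
def tr (e e' : PC Z) (q : Cm 2 × ℂ) : Cm 2 × ℂ := e' (e.symm q)

lemma tr_near (hz : z ∈ e.source) (hz' : z ∈ e'.source) :
    ∀ᶠ q' in 𝓝 (e z), ∃ z', z' ∈ e.source ∧ z' ∈ e'.source ∧ e z' = q' := by
  have h1 : ∀ᶠ q' in 𝓝 (e z), q' ∈ e.target := e.open_target.mem_nhds (e.map_source hz)
  have h2 : ∀ᶠ q' in 𝓝 (e z), e.symm q' ∈ e'.source := by
    refine (e.continuousAt_symm (e.map_source hz)).eventually (e'.open_source.mem_nhds ?_)
    rw [e.left_inv hz]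
    exact hz'
  filter_upwards [h1, h2] with q' h3 h4
  exact ⟨e.symm q', e.map_target h3, h4, e.right_inv h3⟩

lemma tr_apply (hz : z ∈ e.source) : tr e e' (e z) = e' z := by
  rw [tr, e.left_inv hz]

lemma tr_contDiffAt (he : e ∈ F.A) (he' : e' ∈ F.A) (hz : z ∈ e.source) (hz' : z ∈ e'.source) :
    ContDiffAt ℝ ∞ (tr e e') (e z) :=
  ((F.trans e he e' he' z hz hz').restrict_scalars ℝ).of_le le_top

lemma tr_smul (he : e ∈ F.A) (he' : e' ∈ F.A) (hz : z ∈ e.source) (hz' : z ∈ e'.source) (s : ℂ)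
    (w : Cm 2 × ℂ) :
    fderiv ℝ (tr e e') (e z) (s • w) = s • fderiv ℝ (tr e e') (e z) w := by
  have h1 : DifferentiableAt ℂ (tr e e') (e z) :=
    (F.trans e he e' he' z hz hz').differentiableAt (by simp)
  rw [h1.fderiv_restrictScalars ℝ]
  simp

lemma tr_snd (he : e ∈ F.A) (he' : e' ∈ F.A) (hz : z ∈ e.source) (hz' : z ∈ e'.source)
    (w : Cm 2 × ℂ) : (fderiv ℝ (tr e e') (e z) w).2 = w.2 := by
  have h1 := (hasFDerivAt_of (tr_contDiffAt he he' hz hz')).snd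
  have h2 : HasFDerivAt (fun q : Cm 2 × ℂ => q.2) (ContinuousLinearMap.snd ℝ (Cm 2) ℂ) (e z) :=
    hasFDerivAt_snd
  have h3 : (fun q => (tr e e' q).2) =ᶠ[𝓝 (e z)] fun q => q.2 := by
    filter_upwards [tr_near hz hz'] with q' hq'
    obtain ⟨z', h4, h5, h6⟩ := hq'
    rw [← h6, tr_apply h4, F.chart_p e' he' z' h5, F.chart_p e he z' h4]
  have h4 := h1.unique (h2.congr_of_eventuallyEq h3)
  have h5 := congrArg (fun L : Cm 2 × ℂ →L[ℝ] ℂ => L w) h4
  exact h5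

lemma fj_eq (u : Cm 2) : fj e e' z u = (fderiv ℝ (tr e e') (e z) (u, 0)).1 := rfl

variable {v : PC Z → Cm 2 × ℂ → Cm 2} {α : PC Z → Cm 2 × ℂ → BF}

lemma lift_tr (hv : IsLift F v) (he : e ∈ F.A) (he' : e' ∈ F.A) (hz : z ∈ e.source)
    (hz' : z ∈ e'.source) (s : ℂ) :
    fderiv ℝ (tr e e') (e z) (s • v e (e z), s) = (s • v e' (tr e e' (e z)), s) := by
  have h1 : ((s • v e (e z), s) : Cm 2 × ℂ) = s • (v e (e z), (1 : ℂ)) := by simp
  have h2 : fderiv ℝ (tr e e') (e z) (v e (e z), 1) = (v e' (e' z), 1) :=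
    hv.change e he e' he' z hz hz'
  rw [h1, tr_smul he he' hz hz', h2, tr_apply hz]
  simp

end

/-- **R1-NAT** -/
theorem r1Nat {Z : Type} [TopologicalSpace Z] (F : Fam Z) : R1Nat F := by
  intro v s α hv hα
  have nhds_target : ∀ e ∈ F.A, ∀ q ∈ e.target, ∀ᶠ q' in 𝓝 q, q' ∈ e.target :=
    fun e _ q hq => e.open_target.mem_nhds hq
  refine ⟨⟨?_, ?_, ?_⟩, ?_⟩
  · intro e he q hq
    exact contDiffAt_lieB (hv.smooth e he q hq) (hα.smooth e he q hq)
  · intro e he q hq u y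
    refine alt_lieB (hα.smooth e he q hq) ?_ u y
    filter_upwards [nhds_target e he q hq] with q' hq'
    exact hα.alt e he q' hq'
  · intro e he e' he' z hz hz' u x
    have hq := e.map_source hz
    have hq' := e'.map_source hz'
    have hT := tr_contDiffAt he he' hz hz'
    have h1 := change_lieB (s := s) (v' := v e') (α' := α e') (hv.smooth e he _ hq)
      (hα.smooth e he _ hq) hT (by rw [tr_apply hz]; exact hv.smooth e' he' _ hq')
      (by rw [tr_apply hz]; exact hα.smooth e' he' _ hq')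
      (by
        filter_upwards [tr_near hz hz'] with q' hq'
        obtain ⟨z', h4, h5, h6⟩ := hq'
        rw [← h6]
        exact lift_tr hv he he' h4 h5 s)
      (by
        filter_upwards [tr_near hz hz'] with q' hq'
        obtain ⟨z', h4, h5, h6⟩ := hq'
        intro u x
        rw [← h6, hα.change e he e' he' z' h4 h5 u x, tr_apply h4]
        rfl)
      (fun u => by rw [tr_snd he he' hz hz']) u x
    rw [tr_apply hz] at h1
    exact h1
  · intro hcl e he q hq u y x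
    refine closed_lieB (hv.smooth e he q hq) (hα.smooth e he q hq) ?_ (hα.alt e he q hq) u y x
    filter_upwards [nhds_target e he q hq] with q' hq'
    exact hcl e he q' hq'

end Vale.Agent.P298.H369
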